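import Vale.Agent.P050.H499.SubSid
import Vale.Agent.P050.H743.Clo.Legs

/-!
# P050: 1-subdivisions of cycles (even cycles), in the letters of H98
-/

set_option linter.unusedSectionVars false

namespace Vale.Agent.P050.H499

open Finset Vale.Agent.P050.Lev Vale.Agent.P050.H177 Vale.Agent.P050.H743.Clo SimpleGraph

/-- the path with two edges -/
def chy : SimpleGraph (Option Bool) where
  Adj
    | none, some _ => True
    | some _, none => True
    | _, _ => False
  symm := ⟨by
    rintro (_ | a) (_ | b) h <;> exact h⟩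
  loopless := ⟨by
    rintro (_ | a) h <;> exact h⟩

/-- its colouring -/
def chs : Option Bool → Bool
  | none => true
  | some _ => false

theorem chy_gsid : GSid chy chs := by
  refine thin_gsid ?_ ?_ ?_
  · rintro (_ | a) (_ | b) h
    · exact h.elim
    · simp [chs]
    · simp [chs]
    · exact h.elim
  · rintro (_ | a)
    · exact ⟨some true, trivial⟩
    · exact ⟨none, trivial⟩
  · have hu : (univ : Finset (Option Bool)) = insert (some true) (insert (some false)
        (insert none ∅)) := by decide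
    rw [hu]
    refine Thin.insert _ (Thin.insert _ (Thin.insert _ Thin.empty ?_ ?_ ?_) ?_ ?_ ?_) ?_ ?_ ?_
    · simp
    · simp
    · simp
    · simp
    · simp
    · intro x hx y hy hx' hy'
      simp only [empty_union, mem_insert, notMem_empty, or_false] at hx hy
      rw [hx, hy]
    · simp
    · simp
    · intro x hx y hy hx' hy'
      simp only [empty_union, mem_insert, notMem_empty, or_false] at hx hy
      rcases hx with hx | hx
      · subst hx
        exact hx'.elim
      · rcases hy with hy | hy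
        · subst hy
          exact hy'.elim
        · rw [hx, hy]

/-- the position on the cycle of length `2 k + 4` -/
def ps (k : ℕ) : Unit ⊕ (({p // chs p = false} × Fin k) ⊕ Option Bool) → ℕ
  | Sum.inl _ => k + 3
  | Sum.inr (Sum.inl (⟨none, _⟩, _)) => 0
  | Sum.inr (Sum.inl (⟨some true, _⟩, i)) => k + 2 - i
  | Sum.inr (Sum.inl (⟨some false, _⟩, i)) => k + 4 + i
  | Sum.inr (Sum.inr none) => 1
  | Sum.inr (Sum.inr (some true)) => 2
  | Sum.inr (Sum.inr (some false)) => 0

theorem ps_lt (k : ℕ) (x : Unit ⊕ (({p // chs p = false} × Fin k) ⊕ Option Bool)) :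
    ps k x < 2 * (k + 2) := by
  rcases x with _ | ⟨⟨_ | (_ | _), h⟩, i⟩ | (_ | (_ | _)) <;> simp only [ps] <;>
    first | omega | (have := i.2; omega)

/-- adjacency on the cycle -/
def ca (n a b : ℕ) : Prop := a + 1 = b ∨ b + 1 = a ∨ (a = 0 ∧ b + 1 = 2 * n) ∨
  (b = 0 ∧ a + 1 = 2 * n)

theorem ps_inj (k : ℕ) : Function.Injective (ps k) := by
  rintro (_ | ⟨⟨_ | (_ | _), h⟩, i⟩ | (_ | (_ | _))) (_ | ⟨⟨_ | (_ | _), h'⟩, j⟩ | (_ | (_ | _))) hh <;>
    simp only [ps] at hh <;> first
    | rfl
    | (simp only [chs, Bool.true_eq_false] at h; done)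
    | (simp only [chs, Bool.true_eq_false] at h'; done)
    | (exfalso; omega)
    | (exfalso; have := i.2; omega)
    | (exfalso; have := j.2; omega)
    | (exfalso; have := i.2; have := j.2; omega)
    | (have h1 := i.2; have h2 := j.2; have h3 : i = j := Fin.ext (by omega); subst h3; rfl)

theorem ps_adj (k : ℕ) (x y : Unit ⊕ (({p // chs p = false} × Fin k) ⊕ Option Bool)) :
    (legG chy chs k).Adj x y ↔ ca (k + 2) (ps k x) (ps k y) := by
  rcases x with _ | ⟨⟨_ | (_ | _), h⟩, i⟩ | (_ | (_ | _)) <;>
    rcases y with _ | ⟨⟨_ | (_ | _), h'⟩, j⟩ | (_ | (_ | _)) <;>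
    simp only [ps, ca, legG, chy, chs, Subtype.ext_iff, Option.some.injEq, reduceCtorEq,
      true_and, false_and, and_true, and_false, false_iff, Bool.true_eq_false,
      Bool.false_eq_true, false_or, or_false, true_or, or_true] <;>
    first
    | omega
    | (simp only [chs, Bool.true_eq_false] at h; done)
    | (simp only [chs, Bool.true_eq_false] at h'; done)


theorem ps_col (k : ℕ) (x : Unit ⊕ (({p // chs p = false} × Fin k) ⊕ Option Bool)) :
    legS chs k x = decide (ps k x % 2 = 1) := by
  rcases x with _ | ⟨⟨_ | (_ | _), h⟩, i⟩ | (_ | (_ | _))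
  · show decide (k % 2 = 0) = decide ((k + 3) % 2 = 1)
    rw [decide_eq_decide]
    omega
  · simp [chs] at h
  · show decide (((i : ℕ) + k) % 2 = 1) = decide ((k + 4 + i) % 2 = 1)
    rw [decide_eq_decide]
    omega
  · show decide (((i : ℕ) + k) % 2 = 1) = decide ((k + 2 - i) % 2 = 1)
    have := i.2
    rw [decide_eq_decide]
    omega
  · simp [ps, legS, chs]
  · simp [ps, legS, chs]
  · simp [ps, legS, chs]

/-- the side and the number of a vertex -/
def ch (k : ℕ) (x : Unit ⊕ (({p // chs p = false} × Fin k) ⊕ Option Bool)) :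
    Fin (k + 2) ⊕ Fin (k + 2) :=
  if ps k x % 2 = 0 then Sum.inl ⟨ps k x / 2, by have := ps_lt k x; omega⟩
  else Sum.inr ⟨ps k x / 2, by have := ps_lt k x; omega⟩

theorem ch_inj (k : ℕ) : Function.Injective (ch k) := by
  intro x y h
  apply ps_inj k
  unfold ch at h
  split_ifs at h with h1 h2 h2
  · have := congrArg Fin.val (Sum.inl.inj h)
    simp only at this
    omega
  · have := congrArg Fin.val (Sum.inr.inj h)
    simp only at this
    omega

theorem ch_bij (k : ℕ) : Function.Bijective (ch k) := by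
  rw [Fintype.bijective_iff_injective_and_card]
  refine ⟨ch_inj k, ?_⟩
  have h2 : Fintype.card {p : Option Bool // chs p = false} = 2 := by decide
  rw [Fintype.card_sum, Fintype.card_sum, Fintype.card_sum, Fintype.card_prod, h2,
    Fintype.card_fin, Fintype.card_fin, Fintype.card_unit, Fintype.card_option, Fintype.card_bool]
  ring

/-- the edges of a cycle -/
def ce (m : ℕ) (j : Fin (m + 3)) : (cycleGraph (m + 3)).edgeSet :=
  ⟨s(j, j + 1), by
    rw [mem_edgeSet, cycleGraph_adj]
    right
    simp⟩

theorem fin_succ_iff (m : ℕ) (i j : Fin (m + 3)) :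
    i = j + 1 ↔ (i : ℕ) = j + 1 ∨ ((i : ℕ) = 0 ∧ (j : ℕ) + 1 = m + 3) := by
  rw [Fin.ext_iff, Fin.val_add]
  have h1 : ((1 : Fin (m + 3)) : ℕ) = 1 := rfl
  rw [h1]
  have hi := i.2
  have hj := j.2
  rcases Nat.lt_or_ge ((j : ℕ) + 1) (m + 3) with h | h
  · rw [Nat.mod_eq_of_lt h]
    omega
  · have hh : (j : ℕ) + 1 = m + 3 := by omega
    rw [hh, Nat.mod_self]
    omega

theorem ce_inj (m : ℕ) : Function.Injective (ce m) := by
  intro i j h
  have h' := congrArg Subtype.val h
  simp only [ce, Sym2.eq_iff] at h'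
  rcases h' with ⟨h1, _⟩ | ⟨h1, h2⟩
  · exact h1
  · exfalso
    have e1 := (fin_succ_iff m i j).1 h1
    have e2 := (fin_succ_iff m j i).1 h2.symm
    omega

theorem ce_surj (m : ℕ) : Function.Surjective (ce m) := by
  rintro ⟨e, he⟩
  induction e using Sym2.ind with
  | _ u v =>
    rw [mem_edgeSet, cycleGraph_adj] at he
    rcases he with h | h
    · refine ⟨v, Subtype.ext ?_⟩
      have : u = v + 1 := by rw [← h]; simp
      change s(v, v + 1) = s(u, v)
      rw [this]
      exact Sym2.eq_swap
    · refine ⟨u, Subtype.ext ?_⟩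
      have : v = u + 1 := by rw [← h]; simp
      change s(u, u + 1) = s(u, v)
      rw [this]

/-- **Even cycles**, as the 1-subdivisions of cycles of any length. -/
theorem subSid_cycle (m : ℕ) : H98.SubSid (cycleGraph (m + 3)) := by
  have hne : Nonempty (Option Bool) := ⟨none⟩
  have h := legs hne chy_gsid (by
    rintro (_ | a)
    · exact ⟨some true, trivial⟩
    · exact ⟨none, trivial⟩) (m + 1)
  intro i j
  let φ := (Equiv.ofBijective (ch (m + 1)) (ch_bij (m + 1))).trans
    (Equiv.sumCongr (Equiv.refl (Fin (m + 3))) (Equiv.ofBijective (ce m) ⟨ce_inj m, ce_surj m⟩))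
  have hφ : ∀ x, φ x = if ps (m + 1) x % 2 = 0
      then Sum.inl ⟨ps (m + 1) x / 2, by have := ps_lt (m + 1) x; omega⟩
      else Sum.inr (ce m ⟨ps (m + 1) x / 2, by have := ps_lt (m + 1) x; omega⟩) := by
    intro x
    show Sum.map _ _ (ch (m + 1) x) = _
    unfold ch
    split_ifs <;> rfl
  refine gsid_iso φ (fun x y => ?_) (fun x => ?_) h
  · rw [ps_adj, hφ, hφ]
    have hx := ps_lt (m + 1) x
    have hy := ps_lt (m + 1) y
    by_cases h1 : ps (m + 1) x % 2 = 0 <;> by_cases h2 : ps (m + 1) y % 2 = 0
    · rw [if_pos h1, if_pos h2]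
      simp only [H98.sub1, ca, false_iff]
      omega
    · rw [if_pos h1, if_neg h2]
      simp only [H98.sub1, ce, ca, Sym2.mem_iff, fin_succ_iff]
      simp only [Fin.ext_iff]
      omega
    · rw [if_neg h1, if_pos h2]
      simp only [H98.sub1, ce, ca, Sym2.mem_iff, fin_succ_iff]
      simp only [Fin.ext_iff]
      omega
    · rw [if_neg h1, if_neg h2]
      simp only [H98.sub1, ca, false_iff]
      omega
  · rw [ps_col, hφ]
    by_cases h1 : ps (m + 1) x % 2 = 0
    · rw [if_pos h1]
      simp only [Sum.isRight_inl]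
      symm
      rw [decide_eq_false_iff_not]
      omega
    · rw [if_neg h1]
      simp only [Sum.isRight_inr]
      symm
      rw [decide_eq_true_eq]
      omega

end Vale.Agent.P050.H499
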