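import Vale.Agent.P050.H687.Spec

/-!
# P050, block FACT2: the density of a substitution
-/

set_option linter.unusedSectionVars false

namespace Vale.Agent.P050.H499

open Finset Vale.Agent.P050.Lev Vale.Agent.P050.Tmpl Vale.Agent.P050.H177 Vale.Agent.P050.H687

theorem prod_sub {α : Type} [Fintype α] (P : α → Prop) [DecidablePred P] [Fintype {a // P a}]
    (f : α → ℝ) : ∏ a : {a // P a}, f a = ∏ a, if P a then f a else 1 := by
  rw [← Finset.prod_filter]
  exact (Finset.prod_subtype _ (by simp) f).symm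

open Classical in
theorem sideEdges_prod {A : Type} [Fintype A] (F : SimpleGraph A) (side : A → Bool)
    (f : A → A → ℝ) : ∏ e ∈ sideEdges F side, f e.1 e.2 =
      ∏ a, ∏ b, if F.Adj a b ∧ side a = false ∧ side b = true then f a b else 1 := by
  unfold sideEdges
  rw [Finset.prod_filter, Fintype.prod_prod_type]

variable {VG V U : Type} [Fintype VG] [DecidableEq VG] [Fintype V] [DecidableEq V]

theorem mem_pt (τ : V → Bool) (K : Finset V) (b : Bool) (v : V) :
    v ∈ pt τ K b ↔ v ∉ K ∧ τ v = b := by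
  simp [pt]

theorem kk (K : Finset V) (f : V → V → ℝ) :
    ∏ u : {v // v ∈ K}, ∏ v : {v // v ∈ K}, f u v =
      ∏ u, ∏ v, if u ∈ K ∧ v ∈ K then f u v else 1 := by
  rw [prod_sub (fun v => v ∈ K) fun u => ∏ v : {v // v ∈ K}, f u v]
  refine prod_congr rfl fun u _ => ?_
  rw [prod_sub (fun v => v ∈ K) (f u)]
  by_cases hu : u ∈ K <;> simp [hu]

theorem kp (t : VG → Bool) (τ : V → Bool) (K : Finset V) (f : V → VG → V → ℝ) :
    ∏ u : {v // v ∈ K}, ∏ q : {p : VG × V // p.2 ∉ K ∧ t p.1 = τ p.2}, f u q.1.1 q.1.2 =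
      ∏ p, ∏ u, ∏ v, if u ∈ K ∧ v ∈ pt τ K (t p) then f u p v else 1 := by
  rw [prod_sub (fun v => v ∈ K) fun u =>
    ∏ q : {p : VG × V // p.2 ∉ K ∧ t p.1 = τ p.2}, f u q.1.1 q.1.2]
  rw [Finset.prod_comm]
  refine prod_congr rfl fun u _ => ?_
  rw [prod_sub (fun p : VG × V => p.2 ∉ K ∧ t p.1 = τ p.2) fun q => f u q.1 q.2,
    Fintype.prod_prod_type]
  by_cases hu : u ∈ K
  · simp only [hu, if_true, true_and, mem_pt]
    refine prod_congr rfl fun p _ => prod_congr rfl fun v _ => ?_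
    simp only [eq_comm (a := τ v)]
  · simp [hu]

theorem pk (t : VG → Bool) (τ : V → Bool) (K : Finset V) (f : VG → V → V → ℝ) :
    ∏ q : {p : VG × V // p.2 ∉ K ∧ t p.1 = τ p.2}, ∏ v : {v // v ∈ K}, f q.1.1 q.1.2 v =
      ∏ p, ∏ u, ∏ v, if u ∈ pt τ K (t p) ∧ v ∈ K then f p u v else 1 := by
  rw [prod_sub (fun p : VG × V => p.2 ∉ K ∧ t p.1 = τ p.2) fun q =>
    ∏ v : {v // v ∈ K}, f q.1 q.2 v, Fintype.prod_prod_type]
  refine prod_congr rfl fun p _ => prod_congr rfl fun u _ => ?_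
  rw [prod_sub (fun v => v ∈ K) (f p u)]
  by_cases hu : u ∉ K ∧ t p = τ u
  · have hu' : u ∈ pt τ K (t p) := (mem_pt τ K _ u).2 ⟨hu.1, hu.2.symm⟩
    rw [if_pos hu]
    refine prod_congr rfl fun v _ => ?_
    simp only [hu', true_and]
  · have hu' : u ∉ pt τ K (t p) := fun h => hu
      ⟨((mem_pt τ K _ u).1 h).1, ((mem_pt τ K _ u).1 h).2.symm⟩
    simp only [hu', false_and, if_false, prod_const_one]
    rw [if_neg hu]

theorem pp (t : VG → Bool) (τ : V → Bool) (K : Finset V) (f : VG → V → VG → V → ℝ) :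
    ∏ p : {p : VG × V // p.2 ∉ K ∧ t p.1 = τ p.2},
      ∏ q : {p : VG × V // p.2 ∉ K ∧ t p.1 = τ p.2}, f p.1.1 p.1.2 q.1.1 q.1.2 =
      ∏ p, ∏ q, ∏ u, ∏ v, if u ∈ pt τ K (t p) ∧ v ∈ pt τ K (t q) then f p u q v else 1 := by
  rw [prod_sub (fun p : VG × V => p.2 ∉ K ∧ t p.1 = τ p.2) fun p =>
    ∏ q : {p : VG × V // p.2 ∉ K ∧ t p.1 = τ p.2}, f p.1 p.2 q.1.1 q.1.2,
    Fintype.prod_prod_type]
  refine prod_congr rfl fun p _ => ?_
  rw [Finset.prod_comm]
  refine prod_congr rfl fun u _ => ?_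
  rw [prod_sub (fun p : VG × V => p.2 ∉ K ∧ t p.1 = τ p.2) fun q => f p u q.1 q.2,
    Fintype.prod_prod_type]
  by_cases hu : u ∉ K ∧ t p = τ u
  · have hu' : u ∈ pt τ K (t p) := (mem_pt τ K _ u).2 ⟨hu.1, hu.2.symm⟩
    rw [if_pos hu]
    refine prod_congr rfl fun q _ => prod_congr rfl fun v _ => ?_
    simp only [hu', true_and, mem_pt, eq_comm (a := τ v)]
  · have hu' : u ∉ pt τ K (t p) := fun h => hu
      ⟨((mem_pt τ K _ u).1 h).1, ((mem_pt τ K _ u).1 h).2.symm⟩
    simp only [hu', false_and, if_false, prod_const_one]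
    rw [if_neg hu]

/-- the configuration of a substitution given by `r` and the `Z p` -/
def cfg (t : VG → Bool) (τ : V → Bool) (K : Finset V) (r : V → U) (Z : VG → V → U) :
    RV t τ K → U
  | Sum.inl v => r v.1
  | Sum.inr p => Z p.1.1 p.1.2

/-- the factor of an ordered pair of vertices of `G` -/
noncomputable def phi (H : SimpleGraph V) (s : V → Bool) (W : U → U → ℝ) (A B : Finset V)
    (x y : V → U) : ℝ :=
  ∏ u, ∏ v, if u ∈ A ∧ v ∈ B then ed H s W u v (x u) (y v) else 1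

theorem dw_eq (H : SimpleGraph V) (s : V → Bool) (W : U → U → ℝ) (X Y : Finset V)
    (x y : V → U) : dw H s W X Y x y = phi H s W X Y x y * phi H s W Y X y x := by
  unfold dw phi
  simp only [prod_mul_distrib]

theorem bw_eq (H : SimpleGraph V) (s : V → Bool) (W : U → U → ℝ) (K B : Finset V)
    (r x : V → U) : bw H s W K B r x =
      phi H s W K B r x * phi H s W B K x r * phi H s W B B x x := by
  unfold bw phi
  simp only [prod_mul_distrib]

open Classical in
theorem pair_split (G : SimpleGraph VG) (t : VG → Bool) (hG : ∀ p q, G.Adj p q → t p ≠ t q)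
    (f : VG → VG → ℝ) : ∏ p, ∏ q, (if G.Adj p q then f p q else 1) =
      ∏ e ∈ sideEdges G t, f e.1 e.2 * f e.2 e.1 := by
  rw [sideEdges_prod G t fun p q => f p q * f q p]
  have h1 : ∀ p q, (if G.Adj p q then f p q else 1) =
      (if G.Adj p q ∧ t p = false ∧ t q = true then f p q else 1) *
        (if G.Adj p q ∧ t p = true ∧ t q = false then f p q else 1) := by
    intro p q
    by_cases h : G.Adj p q
    · have := hG p q h
      cases hp : t p <;> cases hq : t q <;> simp_all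
    · simp [h]
  have h2 : ∀ p q, (if G.Adj p q ∧ t p = false ∧ t q = true then f p q * f q p else 1) =
      (if G.Adj p q ∧ t p = false ∧ t q = true then f p q else 1) *
        (if G.Adj q p ∧ t q = true ∧ t p = false then f q p else 1) := by
    intro p q
    by_cases h : G.Adj p q ∧ t p = false ∧ t q = true
    · rw [if_pos h, if_pos h, if_pos ⟨h.1.symm, h.2.2, h.2.1⟩]
    · rw [if_neg h, if_neg h, if_neg fun h' => h ⟨h'.1.symm, h'.2.2, h'.2.1⟩, mul_one]
  simp only [h1, h2, prod_mul_distrib]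
  congr 1
  rw [Finset.prod_comm]

theorem fact_point (W : U → U → ℝ) (G : SimpleGraph VG) (t : VG → Bool) (H : SimpleGraph V)
    (s : V → Bool) (K : Finset V) (τ : V → Bool) (hG : ∀ p q, G.Adj p q → t p ≠ t q)
    (r : V → U) (Z : VG → V → U) :
    ∏ e ∈ sideEdges (relSub G t H τ K) (subSide s t τ K),
      W (cfg t τ K r Z e.1) (cfg t τ K r Z e.2) =
      aw H s W K r * (∏ p, bw H s W K (pt τ K (t p)) r (Z p)) *
        ∏ e ∈ sideEdges G t, dw H s W (pt τ K false) (pt τ K true) (Z e.1) (Z e.2) := by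
  classical
  rw [sideEdges_prod (relSub G t H τ K) (subSide s t τ K) fun a b =>
    W (cfg t τ K r Z a) (cfg t τ K r Z b)]
  have e1 : ∏ u : {v // v ∈ K}, ∏ v : {v // v ∈ K}, ed H s W u v (r u) (r v) =
      aw H s W K r := kk K fun u v => ed H s W u v (r u) (r v)
  have e2 := kp t τ K fun u q v => ed H s W u v (r u) (Z q v)
  have e3 := pk t τ K fun q u v => ed H s W u v (Z q u) (r v)
  have e4 := pp t τ K fun p u q v =>
    if p = q ∨ G.Adj p q then ed H s W u v (Z p u) (Z q v) else 1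
  have e5 : ∏ p, ∏ q, ∏ u, ∏ v, (if u ∈ pt τ K (t p) ∧ v ∈ pt τ K (t q) then
      (if p = q ∨ G.Adj p q then ed H s W u v (Z p u) (Z q v) else 1) else 1) =
      (∏ p, phi H s W (pt τ K (t p)) (pt τ K (t p)) (Z p) (Z p)) *
        ∏ e ∈ sideEdges G t, dw H s W (pt τ K false) (pt τ K true) (Z e.1) (Z e.2) := by
    have h1 : ∀ p q, (∏ u, ∏ v, (if u ∈ pt τ K (t p) ∧ v ∈ pt τ K (t q) then
        (if p = q ∨ G.Adj p q then ed H s W u v (Z p u) (Z q v) else 1) else 1)) =
        (if p = q then phi H s W (pt τ K (t p)) (pt τ K (t q)) (Z p) (Z q) else 1) *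
          (if G.Adj p q then phi H s W (pt τ K (t p)) (pt τ K (t q)) (Z p) (Z q) else 1) := by
      intro p q
      by_cases hpq : p = q
      · subst hpq
        simp [phi]
      · by_cases hA : G.Adj p q
        · simp [phi, hpq, hA]
        · simp [hpq, hA]
    simp only [h1, prod_mul_distrib, prod_ite_eq, mem_univ, if_true]
    congr 1
    rw [pair_split G t hG fun p q => phi H s W (pt τ K (t p)) (pt τ K (t q)) (Z p) (Z q)]
    refine prod_congr rfl fun e he => ?_
    have he' : G.Adj e.1 e.2 ∧ t e.1 = false ∧ t e.2 = true := by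
      simpa [sideEdges] using he
    rw [dw_eq, he'.2.1, he'.2.2]
  rw [Fintype.prod_sum_type]
  simp only [Fintype.prod_sum_type, prod_mul_distrib, bw_eq]
  rw [e5] at e4
  have f1 : ∏ u : {v // v ∈ K}, ∏ v : {v // v ∈ K},
      (if (relSub G t H τ K).Adj (Sum.inl u) (Sum.inl v) ∧
        subSide s t τ K (Sum.inl u) = false ∧ subSide s t τ K (Sum.inl v) = true then
        W (cfg t τ K r Z (Sum.inl u)) (cfg t τ K r Z (Sum.inl v)) else 1) =
      ∏ u : {v // v ∈ K}, ∏ v : {v // v ∈ K}, ed H s W u v (r u) (r v) := rfl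
  have f2 : ∏ u : {v // v ∈ K}, ∏ q : {p : VG × V // p.2 ∉ K ∧ t p.1 = τ p.2},
      (if (relSub G t H τ K).Adj (Sum.inl u) (Sum.inr q) ∧
        subSide s t τ K (Sum.inl u) = false ∧ subSide s t τ K (Sum.inr q) = true then
        W (cfg t τ K r Z (Sum.inl u)) (cfg t τ K r Z (Sum.inr q)) else 1) =
      ∏ u : {v // v ∈ K}, ∏ q : {p : VG × V // p.2 ∉ K ∧ t p.1 = τ p.2},
        ed H s W u q.1.2 (r u) (Z q.1.1 q.1.2) := rfl
  have f3 : ∏ q : {p : VG × V // p.2 ∉ K ∧ t p.1 = τ p.2}, ∏ v : {v // v ∈ K},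
      (if (relSub G t H τ K).Adj (Sum.inr q) (Sum.inl v) ∧
        subSide s t τ K (Sum.inr q) = false ∧ subSide s t τ K (Sum.inl v) = true then
        W (cfg t τ K r Z (Sum.inr q)) (cfg t τ K r Z (Sum.inl v)) else 1) =
      ∏ q : {p : VG × V // p.2 ∉ K ∧ t p.1 = τ p.2}, ∏ v : {v // v ∈ K},
        ed H s W q.1.2 v (Z q.1.1 q.1.2) (r v) := rfl
  have f4 : ∏ p : {p : VG × V // p.2 ∉ K ∧ t p.1 = τ p.2},
      ∏ q : {p : VG × V // p.2 ∉ K ∧ t p.1 = τ p.2},
      (if (relSub G t H τ K).Adj (Sum.inr p) (Sum.inr q) ∧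
        subSide s t τ K (Sum.inr p) = false ∧ subSide s t τ K (Sum.inr q) = true then
        W (cfg t τ K r Z (Sum.inr p)) (cfg t τ K r Z (Sum.inr q)) else 1) =
      ∏ p : {p : VG × V // p.2 ∉ K ∧ t p.1 = τ p.2},
        ∏ q : {p : VG × V // p.2 ∉ K ∧ t p.1 = τ p.2},
        (if p.1.1 = q.1.1 ∨ G.Adj p.1.1 q.1.1 then
          ed H s W p.1.2 q.1.2 (Z p.1.1 p.1.2) (Z q.1.1 q.1.2) else 1) := by
    refine prod_congr rfl fun p _ => prod_congr rfl fun q _ => ?_
    have hA : (relSub G t H τ K).Adj (Sum.inr p) (Sum.inr q) ↔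
        (p.1.1 = q.1.1 ∨ G.Adj p.1.1 q.1.1) ∧ H.Adj p.1.2 q.1.2 := Iff.rfl
    by_cases h : p.1.1 = q.1.1 ∨ G.Adj p.1.1 q.1.1
    · rw [if_pos h]
      unfold ed
      refine if_congr ?_ rfl rfl
      rw [hA]
      simp only [h, true_and]
      rfl
    · rw [if_neg h, if_neg]
      intro h'
      exact h (hA.1 h'.1).1
  rw [f1, f2, f3, f4, e1, e2, e3, e4]
  simp only [phi]
  ring

theorem fact2 (hM : MargStmt) : SubStmt := by
  intro VG V U _ _ _ _ _ m W G t H s K τ hm hG
  classical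
  have key := hM (V ⊕ VG × V) (RV t τ K) U
    (Sum.map Subtype.val Subtype.val)
    (fun i => m (match i with
      | Sum.inl v => s v
      | Sum.inr p => s p.2))
    (fun z => ∏ e ∈ sideEdges (relSub G t H τ K) (subSide s t τ K), W (z e.1) (z e.2))
    (Subtype.val_injective.sumMap Subtype.val_injective) (fun i => hm _)
  have hL : ∀ z : RV t τ K → U, (∏ a, m (subSide s t τ K a) (z a)) =
      ∏ a, m (match Sum.map Subtype.val Subtype.val a with
        | Sum.inl v => s v
        | Sum.inr p => s p.2) (z a) := by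
    intro z
    refine prod_congr rfl fun a _ => ?_
    rcases a with v | p <;> rfl
  calc _ = _ := sum_congr rfl fun z _ => by rw [hL z]
    _ = _ := key.symm
    _ = _ := by
      rw [← Equiv.sum_comp ((Equiv.sumArrowEquivProdArrow V (VG × V) U).trans
        ((Equiv.refl _).prodCongr (Equiv.curry VG V U))).symm, Fintype.sum_prod_type]
      refine sum_congr rfl fun r _ => ?_
      rw [mul_sum]
      refine sum_congr rfl fun Z _ => ?_
      have hc : (fun v => ((Equiv.sumArrowEquivProdArrow V (VG × V) U).trans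
          ((Equiv.refl _).prodCongr (Equiv.curry VG V U))).symm (r, Z)
            (Sum.map Subtype.val Subtype.val v)) = cfg t τ K r Z := by
        funext a
        rcases a with v | p <;> rfl
      rw [hc]
      have hp := fact_point W G t H s K τ hG r Z
      rw [hp]
      have hw : (∏ i : V ⊕ VG × V, m (match i with
          | Sum.inl v => s v
          | Sum.inr p => s p.2) (((Equiv.sumArrowEquivProdArrow V (VG × V) U).trans
          ((Equiv.refl _).prodCongr (Equiv.curry VG V U))).symm (r, Z) i)) =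
          pm s m r * ∏ p, pm s m (Z p) := by
        rw [Fintype.prod_sum_type, Fintype.prod_prod_type]
        rfl
      rw [hw, prod_mul_distrib]
      ring

end Vale.Agent.P050.H499
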