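import Vale.Agent.P050.Lev.KSid

/-!
# P050: 1-subdivisions of cartesian products
-/

set_option linter.unusedSectionVars false

namespace Vale.Agent.P050.H499

open Finset Vale.Agent.P050.Lev SimpleGraph

/-- relabelling of the vertices -/
theorem ksid_transport {V V' : Type} [Fintype V] [DecidableEq V] [Fintype V'] [DecidableEq V']
    (φ : V ≃ V') {E : Finset (V × V)} {s : V → Bool} (h : KSid E s)
    {E' : Finset (V' × V')} {s' : V' → Bool} (hE : ∀ a b, (φ a, φ b) ∈ E' ↔ (a, b) ∈ E)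
    (hs : ∀ a, s' (φ a) = s a) : KSid E' s' := by
  have hEE : E' = E.image (Prod.map φ φ) := by
    ext ⟨u, v⟩
    obtain ⟨a, rfl⟩ := φ.surjective u
    obtain ⟨b, rfl⟩ := φ.surjective v
    rw [hE, Finset.mem_image]
    constructor
    · exact fun h => ⟨(a, b), h, rfl⟩
    · rintro ⟨⟨c, d⟩, h, h'⟩
      simp only [Prod.map_apply, Prod.mk.injEq, EmbeddingLike.apply_eq_iff_eq] at h'
      rw [← h'.1, ← h'.2]
      exact h
  refine ⟨?_, fun U _ m W m0 m1 hW => ?_⟩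
  · rintro ⟨u, v⟩ he
    obtain ⟨a, rfl⟩ := φ.surjective u
    obtain ⟨b, rfl⟩ := φ.surjective v
    rw [hE] at he
    simp only [hs]
    exact h.1 _ he
  have key := h.2 U m W m0 m1 hW
  have hinj : Function.Injective (Prod.map φ φ) := φ.injective.prodMap φ.injective
  have hc : E'.card = E.card := by rw [hEE, Finset.card_image_of_injective _ hinj]
  rw [hc]
  refine key.trans (le_of_eq ?_)
  rw [← Equiv.sum_comp (φ.arrowCongr (Equiv.refl U))]
  refine Finset.sum_congr rfl fun z _ => ?_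
  have h1 : ∀ a, (φ.arrowCongr (Equiv.refl U)) z (φ a) = z a := by
    intro a
    simp [Equiv.arrowCongr]
  congr 1
  · rw [← Equiv.prod_comp φ]
    exact Finset.prod_congr rfl fun a _ => by rw [hs, h1]
  · rw [hEE, Finset.prod_image fun x _ y _ hxy => hinj hxy]
    refine Finset.prod_congr rfl fun e _ => ?_
    simp only [Prod.map_fst, Prod.map_snd, h1]

theorem gsid_iso {V V' : Type} [Fintype V] [DecidableEq V] [Fintype V'] [DecidableEq V']
    {F : SimpleGraph V} {s : V → Bool} {F' : SimpleGraph V'} {s' : V' → Bool} (φ : V ≃ V')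
    (hA : ∀ a b, F'.Adj (φ a) (φ b) ↔ F.Adj a b) (hs : ∀ a, s' (φ a) = s a) (h : GSid F s) :
    GSid F' s' := by
  refine ⟨fun u v huv => ?_, ksid_transport φ h.2 (fun a b => ?_) hs⟩
  · obtain ⟨a, rfl⟩ := φ.surjective u
    obtain ⟨b, rfl⟩ := φ.surjective v
    rw [hs, hs]
    exact h.1 a b ((hA a b).1 huv)
  · simp only [sideEdges, mem_filter, mem_univ, true_and, hA, hs]

/-- The 1-subdivision of the graph `F`: the vertices and the edges of `F`, a vertex being adjacent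
to the edges which contain it. -/
def sd {W : Type} (F : SimpleGraph W) : SimpleGraph (W ⊕ F.edgeSet) where
  Adj
    | Sum.inl v, Sum.inr e => v ∈ (e : Sym2 W)
    | Sum.inr e, Sum.inl v => v ∈ (e : Sym2 W)
    | _, _ => False
  symm := ⟨by rintro (a | a) (b | b) h <;> exact h⟩
  loopless := ⟨by rintro (a | a) h <;> exact h⟩

variable {W W₁ W₂ : Type}

@[simp] theorem sd_ll (F : SimpleGraph W) (v w : W) : (sd F).Adj (Sum.inl v) (Sum.inl w) ↔ False :=
  Iff.rfl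

@[simp] theorem sd_lr (F : SimpleGraph W) (v : W) (e : F.edgeSet) :
    (sd F).Adj (Sum.inl v) (Sum.inr e) ↔ v ∈ (e : Sym2 W) := Iff.rfl

@[simp] theorem sd_rl (F : SimpleGraph W) (v : W) (e : F.edgeSet) :
    (sd F).Adj (Sum.inr e) (Sum.inl v) ↔ v ∈ (e : Sym2 W) := Iff.rfl

@[simp] theorem sd_rr (F : SimpleGraph W) (e f : F.edgeSet) :
    (sd F).Adj (Sum.inr e) (Sum.inr f) ↔ False := Iff.rfl

theorem sd_exists (F : SimpleGraph W) (h : ∀ v, ∃ w, F.Adj v w) (a : W ⊕ F.edgeSet) :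
    ∃ b, (sd F).Adj a b := by
  rcases a with v | ⟨e, he⟩
  · obtain ⟨w, hw⟩ := h v
    exact ⟨Sum.inr ⟨s(v, w), hw⟩, by simp⟩
  · induction e using Sym2.ind with
    | _ x y => exact ⟨Sum.inl x, by simp⟩

/-- isomorphic graphs have isomorphic subdivisions -/
theorem sd_iso {F : SimpleGraph W₁} {F' : SimpleGraph W₂} (ψ : F ≃g F')
    [Fintype (W₁ ⊕ F.edgeSet)] [DecidableEq (W₁ ⊕ F.edgeSet)] [Fintype (W₂ ⊕ F'.edgeSet)]
    [DecidableEq (W₂ ⊕ F'.edgeSet)] (h : GSid (sd F) Sum.isRight) :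
    GSid (sd F') Sum.isRight := by
  refine gsid_iso (Equiv.sumCongr ψ.toEquiv ψ.mapEdgeSet) ?_ ?_ h
  · rintro (a | ⟨e, he⟩) (b | ⟨f, hf⟩)
    · simp
    · simp [Iso.mapEdgeSet, Hom.mapEdgeSet]
    · simp [Iso.mapEdgeSet, Hom.mapEdgeSet]
    · simp
  · rintro (a | e) <;> simp

theorem mem_right (F₁ : SimpleGraph W₁) (F₂ : SimpleGraph W₂) (a : W₁) (e : F₂.edgeSet) :
    Sym2.map (fun b => (a, b)) (e : Sym2 W₂) ∈ (F₁ □ F₂).edgeSet := by
  obtain ⟨e, he⟩ := e
  induction e using Sym2.ind with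
  | _ x y =>
    simp only [Sym2.map_mk, mem_edgeSet, boxProd_adj]
    exact Or.inr ⟨he, trivial⟩

theorem mem_left (F₁ : SimpleGraph W₁) (F₂ : SimpleGraph W₂) (b : W₂) (e : F₁.edgeSet) :
    Sym2.map (fun a => (a, b)) (e : Sym2 W₁) ∈ (F₁ □ F₂).edgeSet := by
  obtain ⟨e, he⟩ := e
  induction e using Sym2.ind with
  | _ x y =>
    simp only [Sym2.map_mk, mem_edgeSet, boxProd_adj]
    exact Or.inl ⟨he, trivial⟩

/-- the vertices of three quarters of the product -/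
abbrev TQ (F₁ : SimpleGraph W₁) (F₂ : SimpleGraph W₂) : Set ((W₁ ⊕ F₁.edgeSet) × (W₂ ⊕ F₂.edgeSet)) :=
  {x | Sum.isRight x.1 = false ∨ Sum.isRight x.2 = false}

/-- three quarters of the product of two subdivisions and the subdivision of the product -/
def pf (F₁ : SimpleGraph W₁) (F₂ : SimpleGraph W₂) : TQ F₁ F₂ → (W₁ × W₂) ⊕ (F₁ □ F₂).edgeSet
  | ⟨(Sum.inl a, Sum.inl b), _⟩ => Sum.inl (a, b)
  | ⟨(Sum.inl a, Sum.inr e), _⟩ => Sum.inr ⟨Sym2.map (fun b => (a, b)) (e : Sym2 W₂),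
      mem_right F₁ F₂ a e⟩
  | ⟨(Sum.inr e, Sum.inl b), _⟩ => Sum.inr ⟨Sym2.map (fun a => (a, b)) (e : Sym2 W₁),
      mem_left F₁ F₂ b e⟩
  | ⟨(Sum.inr _, Sum.inr _), h⟩ => absurd h (by simp)

theorem pf_inj (F₁ : SimpleGraph W₁) (F₂ : SimpleGraph W₂) : Function.Injective (pf F₁ F₂) := by
  rintro ⟨⟨a | ⟨e, he⟩, b | ⟨f, hf⟩⟩, h⟩ ⟨⟨a' | ⟨e', he'⟩, b' | ⟨f', hf'⟩⟩, h'⟩ hh
  · simpa [pf] using hh
  · simp [pf] at hh
  · simp [pf] at hh
  · simp at h'
  · simp [pf] at hh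
  · induction f using Sym2.ind with
    | _ x y =>
      induction f' using Sym2.ind with
      | _ x' y' =>
        simp only [pf, Sym2.map_mk, Sum.inr.injEq, Subtype.mk.injEq, Sym2.eq_iff,
          Prod.mk.injEq] at hh
        rcases hh with ⟨⟨h1, h2⟩, _, h3⟩ | ⟨⟨h1, h2⟩, _, h3⟩
        · subst h1 h2 h3
          rfl
        · subst h1 h2 h3
          simp [Sym2.eq_swap]
  · induction f using Sym2.ind with
    | _ x y =>
      induction e' using Sym2.ind with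
      | _ x' y' =>
        exfalso
        simp only [pf, Sym2.map_mk, Sum.inr.injEq, Subtype.mk.injEq, Sym2.eq_iff,
          Prod.mk.injEq] at hh
        rw [mem_edgeSet] at he'
        rcases hh with ⟨⟨h1, h2⟩, h4, h3⟩ | ⟨⟨h1, h2⟩, h4, h3⟩
        · exact he'.ne (h1.symm.trans h4)
        · exact he'.ne (h4.symm.trans h1)
  · simp at h'
  · simp [pf] at hh
  · induction e using Sym2.ind with
    | _ x y =>
      induction f' using Sym2.ind with
      | _ x' y' =>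
        exfalso
        simp only [pf, Sym2.map_mk, Sum.inr.injEq, Subtype.mk.injEq, Sym2.eq_iff,
          Prod.mk.injEq] at hh
        rw [mem_edgeSet] at he
        rcases hh with ⟨⟨h1, h2⟩, h4, h3⟩ | ⟨⟨h1, h2⟩, h4, h3⟩
        · exact he.ne (h1.trans h4.symm)
        · exact he.ne (h1.trans h4.symm)
  · induction e using Sym2.ind with
    | _ x y =>
      induction e' using Sym2.ind with
      | _ x' y' =>
        simp only [pf, Sym2.map_mk, Sum.inr.injEq, Subtype.mk.injEq, Sym2.eq_iff,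
          Prod.mk.injEq] at hh
        rcases hh with ⟨⟨h1, h2⟩, h3, _⟩ | ⟨⟨h1, h2⟩, h3, _⟩
        · subst h1 h2 h3
          rfl
        · subst h1 h2 h3
          simp [Sym2.eq_swap]
  · simp at h'
  · simp at h
  · simp at h
  · simp at h
  · simp at h

theorem pf_surj (F₁ : SimpleGraph W₁) (F₂ : SimpleGraph W₂) : Function.Surjective (pf F₁ F₂) := by
  rintro (⟨a, b⟩ | ⟨e, he⟩)
  · exact ⟨⟨(Sum.inl a, Sum.inl b), by simp⟩, rfl⟩
  · induction e using Sym2.ind with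
    | _ x y =>
      obtain ⟨a, b⟩ := x
      obtain ⟨a', b'⟩ := y
      rw [mem_edgeSet, boxProd_adj] at he
      rcases he with ⟨h, hb⟩ | ⟨h, ha⟩
      · simp only at hb h
        subst hb
        exact ⟨⟨(Sum.inr ⟨s(a, a'), h⟩, Sum.inl b), by simp⟩, rfl⟩
      · simp only at ha h
        subst ha
        exact ⟨⟨(Sum.inl a, Sum.inr ⟨s(b, b'), h⟩), by simp⟩, rfl⟩

theorem pf_adj (F₁ : SimpleGraph W₁) (F₂ : SimpleGraph W₂) (x y : TQ F₁ F₂) :
    (sd (F₁ □ F₂)).Adj (pf F₁ F₂ x) (pf F₁ F₂ y) ↔ ((sd F₁ □ sd F₂).induce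
      {x | Sum.isRight x.1 = false ∨ Sum.isRight x.2 = false}).Adj x y := by
  obtain ⟨⟨a | e, b | f⟩, h⟩ := x <;> obtain ⟨⟨a' | e', b' | f'⟩, h'⟩ := y
  · simp [pf, boxProd_adj]
  · simp only [pf, sd_lr, Sym2.mem_map, Prod.mk.injEq, comap_adj, Function.Embedding.subtype_apply,
      boxProd_adj, sd_ll, false_and, false_or, Sum.inl.injEq]
    constructor
    · rintro ⟨c, hc, h1, h2⟩
      exact ⟨h2 ▸ hc, h1.symm⟩
    · rintro ⟨h1, h2⟩
      exact ⟨b, h1, h2.symm, rfl⟩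
  · simp only [pf, sd_lr, Sym2.mem_map, Prod.mk.injEq, comap_adj, Function.Embedding.subtype_apply,
      boxProd_adj, sd_ll, false_and, or_false, Sum.inl.injEq]
    constructor
    · rintro ⟨c, hc, h1, h2⟩
      exact ⟨h1 ▸ hc, h2.symm⟩
    · rintro ⟨h1, h2⟩
      exact ⟨a, h1, rfl, h2.symm⟩
  · simp at h'
  · simp only [pf, sd_rl, Sym2.mem_map, Prod.mk.injEq, comap_adj, Function.Embedding.subtype_apply,
      boxProd_adj, sd_ll, false_and, false_or, Sum.inl.injEq]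
    constructor
    · rintro ⟨c, hc, h1, h2⟩
      exact ⟨h2 ▸ hc, h1⟩
    · rintro ⟨h1, h2⟩
      exact ⟨b', h1, h2, rfl⟩
  · simp [pf, boxProd_adj]
  · simp [pf, boxProd_adj]
  · simp at h'
  · simp only [pf, sd_rl, Sym2.mem_map, Prod.mk.injEq, comap_adj, Function.Embedding.subtype_apply,
      boxProd_adj, sd_ll, false_and, or_false, Sum.inl.injEq]
    constructor
    · rintro ⟨c, hc, h1, h2⟩
      exact ⟨h1 ▸ hc, h2⟩
    · rintro ⟨h1, h2⟩
      exact ⟨a', h1, rfl, h2⟩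
  · simp [pf, boxProd_adj]
  · simp [pf, boxProd_adj]
  · simp at h'
  · simp at h
  · simp at h
  · simp at h
  · simp at h

theorem sd_prod_of {F₁ : SimpleGraph W₁} {F₂ : SimpleGraph W₂} [Fintype (TQ F₁ F₂)]
    [DecidableEq (TQ F₁ F₂)] [Fintype ((W₁ × W₂) ⊕ (F₁ □ F₂).edgeSet)]
    [DecidableEq ((W₁ × W₂) ⊕ (F₁ □ F₂).edgeSet)]
    (h : GSid ((sd F₁ □ sd F₂).induce {x | Sum.isRight x.1 = false ∨ Sum.isRight x.2 = false})
      (fun x => Sum.isRight x.1.1 || Sum.isRight x.1.2)) :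
    GSid (sd (F₁ □ F₂)) Sum.isRight := by
  refine gsid_iso (Equiv.ofBijective (pf F₁ F₂) ⟨pf_inj F₁ F₂, pf_surj F₁ F₂⟩)
    (fun x y => pf_adj F₁ F₂ x y) ?_ h
  rintro ⟨⟨a | e, b | f⟩, h⟩ <;> first | rfl | simp at h

end Vale.Agent.P050.H499
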