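import Vale.Agent.P050.H499.Sd

/-!
# P050: 1-subdivisions of cones
-/

set_option linter.unusedSectionVars false

namespace Vale.Agent.P050.H499

open Finset Vale.Agent.P050.Lev SimpleGraph

/-- the cone over a graph: a new vertex joined to all vertices -/
def cone {W : Type} (F : SimpleGraph W) : SimpleGraph (Option W) where
  Adj
    | none, some _ => True
    | some _, none => True
    | some v, some w => F.Adj v w
    | none, none => False
  symm := ⟨by
    rintro (_ | a) (_ | b) h
    · exact h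
    · exact h
    · exact h
    · exact h.symm⟩
  loopless := ⟨by
    rintro (_ | a) h
    · exact h
    · exact h.ne rfl⟩

variable {W : Type}

@[simp] theorem cone_nn (F : SimpleGraph W) : (cone F).Adj none none ↔ False := Iff.rfl

@[simp] theorem cone_ns (F : SimpleGraph W) (w : W) : (cone F).Adj none (some w) ↔ True := Iff.rfl

@[simp] theorem cone_sn (F : SimpleGraph W) (w : W) : (cone F).Adj (some w) none ↔ True := Iff.rfl

@[simp] theorem cone_ss (F : SimpleGraph W) (v w : W) :
    (cone F).Adj (some v) (some w) ↔ F.Adj v w := Iff.rfl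

theorem mem_root (F : SimpleGraph W) (w : W) : s(none, some w) ∈ (cone F).edgeSet := by simp

theorem mem_some (F : SimpleGraph W) (e : F.edgeSet) :
    Sym2.map some (e : Sym2 W) ∈ (cone F).edgeSet := by
  obtain ⟨e, he⟩ := e
  induction e using Sym2.ind with
  | _ x y => exact he

/-- the vertices of the root construction over the subdivision of `F` -/
abbrev CV (F : SimpleGraph W) : Type :=
  Unit ⊕ ({p : W ⊕ F.edgeSet // Sum.isRight p = false} ⊕ (W ⊕ F.edgeSet))

/-- the root construction over the subdivision and the subdivision of the cone -/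
def cf (F : SimpleGraph W) : CV F → Option W ⊕ (cone F).edgeSet
  | Sum.inl _ => Sum.inl none
  | Sum.inr (Sum.inl ⟨Sum.inl w, _⟩) => Sum.inr ⟨s(none, some w), mem_root F w⟩
  | Sum.inr (Sum.inl ⟨Sum.inr _, h⟩) => absurd h (by simp)
  | Sum.inr (Sum.inr (Sum.inl w)) => Sum.inl (some w)
  | Sum.inr (Sum.inr (Sum.inr e)) => Sum.inr ⟨Sym2.map some (e : Sym2 W), mem_some F e⟩

theorem cf_inj (F : SimpleGraph W) : Function.Injective (cf F) := by
  rintro (_ | ⟨w | e, h⟩ | w | ⟨e, he⟩) (_ | ⟨w' | e', h'⟩ | w' | ⟨e', he'⟩) hh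
  · rfl
  · simp [cf] at hh
  · simp at h'
  · simp [cf] at hh
  · simp [cf] at hh
  · simp [cf] at hh
  · simp only [cf, Sum.inr.injEq, Subtype.mk.injEq, Sym2.eq_iff, Option.some.injEq, true_and,
      reduceCtorEq, false_and, or_false] at hh
    subst hh
    rfl
  · simp at h'
  · simp [cf] at hh
  · induction e' using Sym2.ind with
    | _ x y => simp [cf] at hh
  · simp at h
  · simp at h
  · simp at h
  · simp at h
  · simp at h
  · simp [cf] at hh
  · simp [cf] at hh
  · simp at h'
  · simpa [cf] using hh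
  · simp [cf] at hh
  · simp [cf] at hh
  · induction e using Sym2.ind with
    | _ x y => simp [cf] at hh
  · simp at h'
  · simp [cf] at hh
  · simp only [cf, Sum.inr.injEq, Subtype.mk.injEq] at hh
    have := Sym2.map.injective (Option.some_injective W) hh
    subst this
    rfl

theorem cf_surj (F : SimpleGraph W) : Function.Surjective (cf F) := by
  rintro ((_ | w) | ⟨e, he⟩)
  · exact ⟨Sum.inl (), rfl⟩
  · exact ⟨Sum.inr (Sum.inr (Sum.inl w)), rfl⟩
  · induction e using Sym2.ind with
    | _ x y =>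
      rw [mem_edgeSet] at he
      rcases x with _ | x <;> rcases y with _ | y
      · exact he.elim
      · exact ⟨Sum.inr (Sum.inl ⟨Sum.inl y, rfl⟩), rfl⟩
      · exact ⟨Sum.inr (Sum.inl ⟨Sum.inl x, rfl⟩), by simp [cf, Sym2.eq_swap]⟩
      · exact ⟨Sum.inr (Sum.inr (Sum.inr ⟨s(x, y), he⟩)), rfl⟩

/-- The subdivision of the cone over `F` is two-sided Sidorenko if the graph `C` is, which is
obtained from the subdivision of `F` by a path of length two from a root to each vertex of `F`. -/
theorem sd_cone_of {F : SimpleGraph W} [Fintype (CV F)] [DecidableEq (CV F)]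
    [Fintype (Option W ⊕ (cone F).edgeSet)] [DecidableEq (Option W ⊕ (cone F).edgeSet)]
    {C : SimpleGraph (CV F)} {c : CV F → Bool} (h : GSid C c)
    (hc0 : c (Sum.inl ()) = false) (hc1 : ∀ p, c (Sum.inr (Sum.inl p)) = true)
    (hc2 : ∀ p, c (Sum.inr (Sum.inr p)) = Sum.isRight p)
    (h1 : ∀ p, C.Adj (Sum.inl ()) (Sum.inr (Sum.inl p)))
    (h2 : ∀ p, ¬ C.Adj (Sum.inl ()) (Sum.inr (Sum.inr p)))
    (h3 : ∀ p q, ¬ C.Adj (Sum.inr (Sum.inl p)) (Sum.inr (Sum.inl q)))
    (h4 : ∀ p q, C.Adj (Sum.inr (Sum.inl p)) (Sum.inr (Sum.inr q)) ↔ q = p.1)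
    (h5 : ∀ p q, C.Adj (Sum.inr (Sum.inr p)) (Sum.inr (Sum.inr q)) ↔ (sd F).Adj p q) :
    GSid (sd (cone F)) Sum.isRight := by
  have h1' : ∀ p, C.Adj (Sum.inr (Sum.inl p)) (Sum.inl ()) := fun p => (h1 p).symm
  have h2' : ∀ p, ¬ C.Adj (Sum.inr (Sum.inr p)) (Sum.inl ()) := fun p h => h2 p h.symm
  have h4' : ∀ p q, C.Adj (Sum.inr (Sum.inr q)) (Sum.inr (Sum.inl p)) ↔ q = p.1 :=
    fun p q => ⟨fun h => (h4 p q).1 h.symm, fun h => ((h4 p q).2 h).symm⟩
  refine gsid_iso (Equiv.ofBijective (cf F) ⟨cf_inj F, cf_surj F⟩) (fun x y => ?_) (fun x => ?_) h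
  · change (sd (cone F)).Adj (cf F x) (cf F y) ↔ C.Adj x y
    rcases x with _ | ⟨w | e, h⟩ | w | ⟨e, he⟩ <;>
      rcases y with _ | ⟨w' | e', h'⟩ | w' | ⟨e', he'⟩
    · simp [cf]
    · simp [cf, h1]
    · simp at h'
    · simp [cf, h2]
    · simp [cf, h2]
    · simp [cf, h1']
    · simp [cf, h3]
    · simp at h'
    · simp [cf, h4]
    · simp [cf, h4]
    · simp at h
    · simp at h
    · simp at h
    · simp at h
    · simp at h
    · simp [cf, h2']
    · simp [cf, h4']
    · simp at h'
    · simp [cf, h5]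
    · simp [cf, h5]
    · simp [cf, h2']
    · simp [cf, h4']
    · simp at h'
    · simp [cf, h5]
    · simp [cf, h5]
  · change Sum.isRight (cf F x) = c x
    rcases x with _ | ⟨w | e, h⟩ | w | ⟨e, he⟩
    · exact hc0.symm
    · exact (hc1 _).symm
    · simp at h
    · exact (hc2 (Sum.inl w)).symm
    · exact (hc2 (Sum.inr ⟨e, he⟩)).symm

/-- the cone over a complete graph is a complete graph -/
def coneTop (n : ℕ) : cone (⊤ : SimpleGraph (Fin n)) ≃g (⊤ : SimpleGraph (Fin (n + 1))) where
  toEquiv := (finSuccEquiv n).symm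
  map_rel_iff' := by
    intro a b
    rw [top_adj, ne_eq, EmbeddingLike.apply_eq_iff_eq]
    rcases a with _ | a <;> rcases b with _ | b <;> simp

end Vale.Agent.P050.H499
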