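import Vale.Agent.P050.H499.SdCone
import Vale.Agent.P050.H743.Clo.Cone
import Vale.Agent.P050.H346.Tree

/-!
# P050: 1-subdivisions of complete graphs and of their cartesian products
-/

set_option linter.unusedSectionVars false

namespace Vale.Agent.P050.H499

open Finset Vale.Agent.P050.Lev Vale.Agent.P050.H177 SimpleGraph

/-- the 1-subdivision of `F` is two-sided Sidorenko -/
def SdSid {W : Type} [Finite W] (F : SimpleGraph W) : Prop :=
  @GSid (W ⊕ F.edgeSet) (Fintype.ofFinite _) (Classical.decEq _) (sd F) Sum.isRight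

theorem sdSid_iff {W : Type} [Finite W] (F : SimpleGraph W) [Fintype (W ⊕ F.edgeSet)]
    [DecidableEq (W ⊕ F.edgeSet)] : SdSid F ↔ GSid (sd F) Sum.isRight := by
  constructor
  · intro h
    exact @gsid_iso _ _ (Fintype.ofFinite _) (Classical.decEq _) _ _ _ _ _ _ (Equiv.refl _)
      (fun _ _ => Iff.rfl) (fun _ => rfl) h
  · intro h
    exact @gsid_iso _ _ _ _ (Fintype.ofFinite _) (Classical.decEq _) _ _ _ _ (Equiv.refl _)
      (fun _ _ => Iff.rfl) (fun _ => rfl) h

theorem sdSid_iso {W₁ W₂ : Type} [Finite W₁] [Finite W₂] {F : SimpleGraph W₁}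
    {F' : SimpleGraph W₂} (ψ : F ≃g F') (h : SdSid F) : SdSid F' :=
  @sd_iso _ _ _ _ ψ (Fintype.ofFinite _) (Classical.decEq _) (Fintype.ofFinite _)
    (Classical.decEq _) h

theorem sdSid_cone {W : Type} [Finite W] [Nonempty W] {F : SimpleGraph W}
    (hi : ∀ v, ∃ w, F.Adj v w) (h : SdSid F) : SdSid (cone F) := by
  let i1 : Fintype (W ⊕ F.edgeSet) := Fintype.ofFinite _
  let i2 : DecidableEq (W ⊕ F.edgeSet) := Classical.decEq _
  let i3 : Fintype (Option W ⊕ (cone F).edgeSet) := Fintype.ofFinite _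
  let i4 : DecidableEq (Option W ⊕ (cone F).edgeSet) := Classical.decEq _
  have hne : Nonempty (W ⊕ F.edgeSet) := inferInstance
  have h1 := H743.Clo.cone hne ((sdSid_iff F).1 h) (sd_exists F hi)
  refine (sdSid_iff (cone F)).2 ?_
  exact sd_cone_of h1 rfl (fun _ => rfl) (fun _ => rfl) (fun _ => trivial)
    (fun _ h => h) (fun _ _ h => h) (fun _ _ => eq_comm) (fun _ _ => Iff.rfl)

theorem sd_proper {W : Type} (F : SimpleGraph W) (u v : W ⊕ F.edgeSet) (h : (sd F).Adj u v) :
    Sum.isRight u ≠ Sum.isRight v := by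
  rcases u with u | u <;> rcases v with v | v
  · exact h.elim
  · simp
  · simp
  · exact h.elim

theorem top_two_exists (v : Fin 2) : ∃ w, (⊤ : SimpleGraph (Fin 2)).Adj v w := by
  obtain ⟨w, hw⟩ := exists_ne v
  exact ⟨w, by rw [top_adj]; exact hw.symm⟩

theorem sdSid_two : SdSid (⊤ : SimpleGraph (Fin 2)) := by
  let i1 : Fintype (Fin 2 ⊕ (⊤ : SimpleGraph (Fin 2)).edgeSet) := Fintype.ofFinite _
  let i2 : DecidableEq (Fin 2 ⊕ (⊤ : SimpleGraph (Fin 2)).edgeSet) := Classical.decEq _
  have he : s((0 : Fin 2), 1) ∈ (⊤ : SimpleGraph (Fin 2)).edgeSet := by simp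
  have hu : (univ : Finset (Fin 2 ⊕ (⊤ : SimpleGraph (Fin 2)).edgeSet)) =
      insert (Sum.inl 1) (insert (Sum.inl 0) (insert (Sum.inr ⟨s(0, 1), he⟩) ∅)) := by
    ext x
    simp only [mem_univ, mem_insert, notMem_empty, or_false, true_iff]
    rcases x with i | ⟨e, he'⟩
    · fin_cases i
      · exact Or.inr (Or.inl rfl)
      · exact Or.inl rfl
    · right
      right
      congr 1
      apply Subtype.ext
      induction e using Sym2.ind with
      | _ x y =>
        rw [mem_edgeSet, top_adj] at he'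
        fin_cases x <;> fin_cases y
        · exact absurd rfl he'
        · rfl
        · exact Sym2.eq_swap
        · exact absurd rfl he'
  refine (sdSid_iff _).2 (H346.forest_gsid (sd_proper _) ?_ (sd_exists _ top_two_exists))
  rw [hu]
  refine Thin.insert _ (Thin.insert _ (Thin.insert _ Thin.empty ?_ ?_ ?_) ?_ ?_ ?_) ?_ ?_ ?_
  · simp
  · simp
  · simp
  · simp
  · simp
  · intro x hx y hy hx' hy'
    simp only [empty_union, mem_insert, notMem_empty, or_false] at hx hy
    rw [hx, hy]
  · simp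
  · simp
  · intro x hx y hy hx' hy'
    simp only [empty_union, mem_insert, notMem_empty, or_false] at hx hy
    rcases hx with hx | hx
    · subst hx
      exact hx'.elim
    · rcases hy with hy | hy
      · subst hy
        exact hy'.elim
      · rw [hx, hy]

theorem top_exists (n : ℕ) (v : Fin (n + 2)) :
    ∃ w, (⊤ : SimpleGraph (Fin (n + 2))).Adj v w := by
  obtain ⟨w, hw⟩ := exists_ne v
  exact ⟨w, by rw [top_adj]; exact hw.symm⟩

/-- the 1-subdivision of a complete graph -/
theorem sdSid_top (n : ℕ) : SdSid (⊤ : SimpleGraph (Fin (n + 2))) := by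
  induction n with
  | zero => exact sdSid_two
  | succ n ih => exact sdSid_iso (coneTop (n + 2)) (sdSid_cone (top_exists n) ih)

/-- two vertices are adjacent iff they differ in exactly one coordinate -/
def ham {d : ℕ} (n : Fin d → ℕ) : SimpleGraph (∀ i, Fin (n i)) where
  Adj x y := ∃ i, x i ≠ y i ∧ ∀ j, j ≠ i → x j = y j
  symm := ⟨fun _ _ ⟨i, h, h'⟩ => ⟨i, h.symm, fun j hj => (h' j hj).symm⟩⟩
  loopless := ⟨fun _ ⟨_, h, _⟩ => h rfl⟩

theorem ham_exists {d : ℕ} (n : Fin (d + 1) → ℕ) (hn : ∀ i, 2 ≤ n i) (x : ∀ i, Fin (n i)) :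
    ∃ y, (ham n).Adj x y := by
  have : Nontrivial (Fin (n 0)) := Fin.nontrivial_iff_two_le.2 (hn 0)
  obtain ⟨w, hw⟩ := exists_ne (x 0)
  refine ⟨Function.update x 0 w, 0, ?_, fun j hj => ?_⟩
  · simpa using hw.symm
  · simp [hj]

/-- one factor -/
def hamOne (n : Fin 1 → ℕ) : (⊤ : SimpleGraph (Fin (n 0))) ≃g ham n where
  toEquiv := (Equiv.piUnique fun i => Fin (n i)).symm
  map_rel_iff' := by
    intro a b
    rw [top_adj]
    constructor
    · rintro ⟨i, hi, -⟩ h
      exact hi (by rw [h])
    · intro h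
      refine ⟨0, fun h' => h ?_, fun j hj => absurd (Subsingleton.elim j 0) hj⟩
      have := (Equiv.piUnique fun i => Fin (n i)).symm.injective
      apply this
      funext j
      rw [Subsingleton.elim j 0]
      exact h'

/-- splitting off the first factor -/
def hamSucc {d : ℕ} (n : Fin (d + 1) → ℕ) :
    SimpleGraph.boxProd (⊤ : SimpleGraph (Fin (n 0))) (ham fun i => n (Fin.succ i)) ≃g ham n where
  toEquiv := Fin.consEquiv fun i => Fin (n i)
  map_rel_iff' := by
    rintro ⟨a, f⟩ ⟨b, g⟩
    rw [boxProd_adj, top_adj]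
    change (∃ i, (Fin.cons a f : ∀ i, Fin (n i)) i ≠ (Fin.cons b g : ∀ i, Fin (n i)) i ∧
      ∀ j, j ≠ i → (Fin.cons a f : ∀ i, Fin (n i)) j = (Fin.cons b g : ∀ i, Fin (n i)) j) ↔ _
    constructor
    · rintro ⟨i, hi, h⟩
      induction i using Fin.cases with
      | zero =>
        left
        refine ⟨by simpa using hi, ?_⟩
        funext j
        simpa using h j.succ (Fin.succ_ne_zero j)
      | succ i =>
        right
        refine ⟨⟨i, by simpa using hi, fun j hj => ?_⟩, ?_⟩
        · simpa using h j.succ (fun h => hj (Fin.succ_injective _ h))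
        · simpa using h 0 (Fin.succ_ne_zero i).symm
    · rintro (⟨h, h'⟩ | ⟨⟨i, hi, h⟩, h'⟩)
      · refine ⟨0, by simpa using h, fun j hj => ?_⟩
        induction j using Fin.cases with
        | zero => exact absurd rfl hj
        | succ j =>
          simp only at h'
          simp [h']
      · refine ⟨i.succ, by simpa using hi, fun j hj => ?_⟩
        induction j using Fin.cases with
        | zero => simpa using h'
        | succ j => simpa using h j (fun hh => hj (by rw [hh]))

end Vale.Agent.P050.H499
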