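import Vale.Agent.P050.H499.SdMain
import Vale.Agent.P050.H687.Prod

/-!
# P050: 1-subdivisions of cartesian products of complete graphs
-/

set_option linter.unusedSectionVars false

namespace Vale.Agent.P050.H499

open Finset Vale.Agent.P050.Lev SimpleGraph

theorem sdSid_prod {W₁ W₂ : Type} [Finite W₁] [Finite W₂] {F₁ : SimpleGraph W₁}
    {F₂ : SimpleGraph W₂} (h₁ : SdSid F₁) (h₂ : SdSid F₂) (hi₁ : ∀ v, ∃ w, F₁.Adj v w)
    (hi₂ : ∀ v, ∃ w, F₂.Adj v w) : SdSid (SimpleGraph.boxProd F₁ F₂) := by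
  let i1 : Fintype (W₁ ⊕ F₁.edgeSet) := Fintype.ofFinite _
  let i2 : DecidableEq (W₁ ⊕ F₁.edgeSet) := Classical.decEq _
  let i3 : Fintype (W₂ ⊕ F₂.edgeSet) := Fintype.ofFinite _
  let i4 : DecidableEq (W₂ ⊕ F₂.edgeSet) := Classical.decEq _
  let i5 : Fintype ((W₁ × W₂) ⊕ (SimpleGraph.boxProd F₁ F₂).edgeSet) := Fintype.ofFinite _
  let i6 : DecidableEq ((W₁ × W₂) ⊕ (SimpleGraph.boxProd F₁ F₂).edgeSet) := Classical.decEq _
  have h := H687.prod3_gsid ((sdSid_iff F₁).1 h₁) ((sdSid_iff F₂).1 h₂) (sd_exists F₁ hi₁)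
    (sd_exists F₂ hi₂)
  refine (sdSid_iff _).2 (@sd_prod_of _ _ _ _ (Fintype.ofFinite _) (Classical.decEq _) _ _ ?_)
  exact @gsid_iso _ (TQ F₁ F₂) _ _ (Fintype.ofFinite _) (Classical.decEq _) _ _ _ _
    (Equiv.refl _) (fun _ _ => Iff.rfl) (fun _ => rfl) h

/-- the 1-subdivision of a cartesian product of complete graphs -/
theorem sdSid_ham (d : ℕ) (n : Fin (d + 1) → ℕ) (hn : ∀ i, 2 ≤ n i) : SdSid (ham n) := by
  induction d with
  | zero =>
    refine sdSid_iso (hamOne n) ?_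
    obtain ⟨k, hk⟩ : ∃ k, n 0 = k + 2 := ⟨n 0 - 2, by have := hn 0; omega⟩
    rw [hk]
    exact sdSid_top k
  | succ d ih =>
    obtain ⟨k, hk⟩ : ∃ k, n 0 = k + 2 := ⟨n 0 - 2, by have := hn 0; omega⟩
    refine sdSid_iso (hamSucc n) (sdSid_prod ?_ (ih _ fun i => hn i.succ) ?_
      (ham_exists _ fun i => hn i.succ))
    · rw [hk]
      exact sdSid_top k
    · rw [hk]
      exact top_exists k

end Vale.Agent.P050.H499
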