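import Vale.Agent.P050.H499.SdMain
import Vale.Agent.P050.H98.SubBox

/-!
# P050: 1-subdivisions of cones, complete graphs and their cartesian products, in the letters of H98
-/

set_option linter.unusedSectionVars false

namespace Vale.Agent.P050.H499

open Finset Vale.Agent.P050.Lev SimpleGraph

theorem subSid_iff {V : Type} [Finite V] (F : SimpleGraph V) : H98.SubSid F ↔ SdSid F := by
  have hA : ∀ a b, (sd F).Adj a b ↔ (H98.sub1 F).Adj a b := by
    rintro (a | a) (b | b) <;> exact Iff.rfl
  constructor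
  · intro h
    exact @gsid_iso _ _ (Fintype.ofFinite _) (Classical.decEq _) (Fintype.ofFinite _)
      (Classical.decEq _) _ _ _ _ (Equiv.refl _) (fun a b => hA a b) (fun _ => rfl)
      (h (Fintype.ofFinite _) (Classical.decEq _))
  · intro h i j
    exact @gsid_iso _ _ (Fintype.ofFinite _) (Classical.decEq _) i j _ _ _ _ (Equiv.refl _)
      (fun a b => (hA a b).symm) (fun _ => rfl) h

/-- the 1-subdivision of a cone -/
theorem subSid_cone {V : Type} [Finite V] [Nonempty V] {F : SimpleGraph V}
    (hi : ∀ v, ∃ w, F.Adj v w) (h : H98.SubSid F) : H98.SubSid (cone F) :=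
  (subSid_iff _).2 (sdSid_cone hi ((subSid_iff F).1 h))

/-- the 1-subdivision of a complete graph -/
theorem subSid_top (n : ℕ) : H98.SubSid (⊤ : SimpleGraph (Fin (n + 2))) :=
  (subSid_iff _).2 (sdSid_top n)

theorem subSid_iso {V W : Type} [Finite V] [Finite W] {F : SimpleGraph V} {F' : SimpleGraph W}
    (ψ : F ≃g F') (h : H98.SubSid F) : H98.SubSid F' :=
  (subSid_iff _).2 (sdSid_iso ψ ((subSid_iff F).1 h))

/-- the 1-subdivision of a cartesian product of complete graphs -/
theorem subSid_ham (d : ℕ) (n : Fin (d + 1) → ℕ) (hn : ∀ i, 2 ≤ n i) : H98.SubSid (ham n) := by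
  induction d with
  | zero =>
    refine subSid_iso (hamOne n) ?_
    obtain ⟨k, hk⟩ : ∃ k, n 0 = k + 2 := ⟨n 0 - 2, by have := hn 0; omega⟩
    rw [hk]
    exact subSid_top k
  | succ d ih =>
    obtain ⟨k, hk⟩ : ∃ k, n 0 = k + 2 := ⟨n 0 - 2, by have := hn 0; omega⟩
    refine subSid_iso (hamSucc n) (H98.subSid_box ?_ (ih _ fun i => hn i.succ))
    rw [hk]
    exact subSid_top k

end Vale.Agent.P050.H499
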